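import Crest.Agent.N255.Ts.Dich
import Crest.Agent.N255.Core.Gen

/-!
# Row 255, core (helper22): the dichotomy for arbitrary weights `DichG`
-/

set_option autoImplicit false

namespace N255.Ts

section Abs
open Module

variable {k V : Type*} [Field k] [AddCommGroup V] [Module k V]

/-- **abstract dichotomy, true form** (closed vectors of `Sp S` allowed, graded projection) -/
theorem dich3 {M : Type*} [Finite M] {e : Basis (ℤ × M) k V} {B : V →ₗ[k] V →ₗ[k] k}
    {c : ℤ × M → ℤ × M} (hB : Pf e B c) (d E E' σ : V →ₗ[k] V) (N J J0 : ℤ)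
    (hσ : Function.Surjective σ) (hd : ∀ z v, B (d z) v = -B (σ z) (d v))
    (hd' : ∀ w, ∃ w', ∀ z, B (d z) w = B z (d w')) (dd : ∀ z, d (d z) = 0)
    (hE : ∀ z v, B (E z) v = B z (E v)) (hE' : ∀ z, E' (E z) = z)
    (d1 : ∀ n : ℤ, ∀ x, d (e (n, x)) ∈ Sp e {y | y.1 = n})
    (E1 : ∀ n : ℤ, ∀ x, E (e (n, x)) ∈ Sp e {y | n - N ≤ y.1})
    (E2 : ∀ n : ℤ, ∀ x, E' (e (n, x)) ∈ Sp e {y | n - N ≤ y.1})
    (G : Set (ℤ × M)) (Gd : ∀ v, pr e G (d v) = d (pr e G v))
    (GE : ∀ v, pr e G (E' v) = E' (pr e G v)) (S T : Set (ℤ × M))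
    (T0 : ∀ x ∈ T, -J0 ≤ x.1) (TJ : ∀ x : ℤ × M, J ≤ x.1 → x ∈ T) (t : ℤ × M)
    (ht : t.1 < J) (tG : t ∈ G) :
    (∃ z s, s ∈ Sp e S ∧ d s = 0 ∧ E' (d z + s) - e t ∈ Sp e ((G ∩ T) \ {t})) ∨
      ∃ z s, s ∈ Sp e {y | c y ∉ S} ∧ d s = 0 ∧
        E (d z + s) - e (c t) ∈ Sp e {y | c y ∉ T} := by
  by_cases h : ∃ z s, s ∈ Sp e S ∧ d s = 0 ∧ E' (d z + s) ∈ Sp e T ∧
      e.repr (E' (d z + s)) t ≠ 0
  · obtain ⟨z, s, h1, h2, h3, h4⟩ := h
    set a := (e.repr (E' (d z + s)) t)⁻¹ with ha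
    refine Or.inl ⟨pr e G (a • z), pr e G (a • s),
      Sp_mono Set.inter_subset_right (pr_mem_inter (Submodule.smul_mem _ a h1)),
      by rw [← Gd, map_smul, h2, smul_zero, map_zero], mem_Sp.2 fun x hx => ?_⟩
    rw [← Gd, ← map_add, ← GE, map_smul, ← smul_add, map_smul, map_sub, Finsupp.sub_apply,
      repr_pr, map_smul, Finsupp.smul_apply, smul_eq_mul, Basis.repr_self]
    by_cases hxt : x = t
    · subst hxt
      rw [if_pos tG, ha, inv_mul_cancel₀ h4, Finsupp.single_eq_same, sub_self]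
    · rw [Finsupp.single_eq_of_ne hxt, sub_zero]
      split_ifs with hG
      · rw [mem_Sp.1 h3 x fun hT => hx ⟨⟨hG, hT⟩, hxt⟩, mul_zero]
      · rfl
  refine Or.inr ?_
  push Not at h
  obtain ⟨f, f1, f2⟩ := exists_ext (Sp e T)
    ((LinearMap.range d ⊔ (Sp e S ⊓ LinearMap.ker d)).map E') (B.flip (e (c t))) (by
    rintro _ hv ⟨w, hw, rfl⟩
    obtain ⟨_, ⟨z, rfl⟩, s, hs, rfl⟩ := Submodule.mem_sup.1 hw
    rw [LinearMap.flip_apply, hB.left, h z s hs.1 hs.2 hv, mul_zero])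
  have f3 : ∀ v ∈ Sp e {y : ℤ × M | J ≤ y.1}, f v = 0 := fun v hv => by
    rw [f1 v (Sp_mono (fun y hy => TJ y hy) hv), LinearMap.flip_apply, hB.left,
      mem_Sp.1 hv t (not_le.2 ht), mul_zero]
  obtain ⟨v, hv⟩ := hB.rep (f ∘ₗ E' ∘ₗ pr e {y | -(N + J0) ≤ y.1}) (by
    refine ((Set.finite_Icc (-(N + J0)) (J + N)).prod (Set.finite_univ (α := M))).subset ?_
    rintro ⟨n, x⟩ hx
    simp only [Set.mem_ofPred_eq, LinearMap.comp_apply, pr_basis] at hx
    refine ⟨⟨by_contra fun h0 => hx (by rw [if_neg h0, map_zero, map_zero]), ?_⟩, trivial⟩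
    by_contra h0
    refine hx ?_
    split_ifs
    · exact f3 _ (Sp_mono (fun y hy => by
        simp only [Set.mem_ofPred_eq, not_le] at hy h0 ⊢; omega) (E2 n x))
    · rw [map_zero, map_zero])
  have hv0 : d v = 0 := hB.nondeg fun z => by
    obtain ⟨z, rfl⟩ := hσ z
    rw [← neg_eq_zero, ← hd, hv, LinearMap.comp_apply, LinearMap.comp_apply,
      pr_deg d1 fun j => -(N + J0) ≤ j]
    exact f2 _ ⟨_, Submodule.mem_sup_left ⟨_, rfl⟩, rfl⟩
  obtain ⟨z, s, hs, rfl⟩ := perp_split hB d hd' d1 S (v := v) fun w h1 h2 => by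
    rw [hv, LinearMap.comp_apply, LinearMap.comp_apply]
    refine f2 _ ⟨_, Submodule.mem_sup_right
      ⟨Sp_mono Set.inter_subset_right (pr_mem_inter h1), ?_⟩, rfl⟩
    change d _ = 0
    rw [← pr_deg d1 fun j => -(N + J0) ≤ j, h2, map_zero]
  refine ⟨z, s, hs, by rwa [map_add, dd, zero_add] at hv0, hB.perp fun x hx => ?_⟩
  rw [map_sub, ← hE, hv, LinearMap.comp_apply, LinearMap.comp_apply,
    pr_of_mem (Sp_mono (fun y hy => ?_) (E1 x.1 x.2)), hE', f1 _ (basis_mem_Sp hx),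
    LinearMap.flip_apply, sub_self]
  have := T0 x hx
  simp only [Set.mem_ofPred_eq] at hy ⊢
  omega

end Abs

open Finset Module LaurentPolynomial N255.Dr N255.Dr.Om

section Gen
variable {p : ℕ} {k : Type} [Field k] {σ : Type} [Fintype σ] [DecidableEq σ]
  {Γ : Type} [AddCommGroup Γ]

/-- the dichotomy on forms -/
theorem dich_om3 [Fact p.Prime] [Fact ((p : k) = 0)] (δ : Γ) (deg : σ → Γ) (X X' : O p (LA k) σ)
    (hX : X' * X = 1) (hX' : fn X' ∈ Su fun j a S => dg δ deg j a S = 0)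
    (S T : Set (Ix p σ)) (J J0 : ℤ) (T0 : ∀ x ∈ T, -J0 ≤ x.1) (TJ : ∀ x : Ix p σ, J ≤ x.1 → x ∈ T)
    (t : Ix p σ) (ht : t.1 < J) :
    (∃ z s : Om p (LA k) σ, s ∈ Sp ub S ∧ d s = 0 ∧ X' • (d z + s) - ub t ∈
      Sp ub (({x : Ix p σ | dg δ deg x.1 (fun i => (x.2.1 i : ℕ)) x.2.2 =
        dg δ deg t.1 (fun i => (t.2.1 i : ℕ)) t.2.2} ∩ T) \ {t})) ∨
      ∃ z s : Om p (LA k) σ, s ∈ Sp ub {y | cx y ∉ S} ∧ d s = 0 ∧
        X • (d z + s) - ub (cx t) ∈ Sp ub {y | cx y ∉ T} := by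
  obtain ⟨N, hN⟩ := exists_low (fn X)
  obtain ⟨N', hN'⟩ := exists_low (fn X')
  have low : ∀ (Y : O p (LA k) σ) (M : ℤ), fn Y ∈ Su (fun j _ _ => -M ≤ j) → M ≤ max N N' →
      ∀ (n : ℤ) (x : (σ → Fin p) × Finset σ), LinearMap.mulLeft k (fn Y) (ub (n, x)) ∈
        Sp ub {y : Ix p σ | n - max N N' ≤ y.1} := fun Y M hY hM n x =>
    Su_mul (Q := fun j _ _ => j = n) (R := fun j _ _ => n - max N N' ≤ j)
      (fun j a S j' a' S' h1 h2 _ _ => by omega) hY (basis_mem_Sp (x := (n, x)) rfl)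
  have := dich3 (e := (ub : Basis (Ix p σ) k (Om p (LA k) σ))) pf_Bp
    ((d : Om p (LA k) σ →ₗ[LA k] _).restrictScalars k) (LinearMap.mulLeft k (fn X))
    (LinearMap.mulLeft k (fn X'))
    ((inv.toLinearMap : Om p (LA k) σ →ₗ[O p (LA k) σ] _).restrictScalars k) (max N N') J J0
    (fun z => ⟨inv z, inv_inv z⟩)
    (fun z v => by
      change cT _ (int (d z * v)) = -cT _ (int (inv z * d v))
      rw [int_d_mul, map_neg])
    (fun w => ⟨(-1 : ℤ) ^ Fintype.card σ • inv w, fun z => by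
      change cT _ (int (d z * w)) = cT _ (int (z * d ((-1 : ℤ) ^ Fintype.card σ • inv w)))
      rw [int_d_mul, map_zsmul, mul_smul_comm, map_zsmul, ← int_inv, map_mul inv, inv_d,
        Om.inv_inv,        mul_neg, map_neg int]⟩)
    (fun z => d_d z)
    (fun z v => by
      change cT _ (int (fn X * z * v)) = cT _ (int (z * (fn X * v)))
      rw [← comm_of_even (inv_fn X), mul_assoc])
    (fun z => by
      change fn X' * (fn X * z) = z
      rw [← mul_assoc, ← map_mul, hX, map_one, one_mul])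
    (fun n x => Su_d (P := fun j _ _ => j = n) (Q := fun j _ _ => j = n)
      (fun j a S i h _ _ => h) (basis_mem_Sp (x := (n, x)) rfl))
    (low X N hN (le_max_left _ _)) (low X' N' hN' (le_max_right _ _))
    {x : Ix p σ | dg δ deg x.1 (fun i => (x.2.1 i : ℕ)) x.2.2 =
        dg δ deg t.1 (fun i => (t.2.1 i : ℕ)) t.2.2}
    (pu_comm (P := fun j a S => dg δ deg j a S = _)
      (fun ω h => Su_d (fun j a S i h1 h2 h3 => by rw [dg_d δ deg j h2 h3, h1]) h)
      (fun ω h => Su_d (fun j a S i h1 h2 h3 => by rwa [dg_d δ deg j h2 h3]) h))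
    (pu_comm (P := fun j a S => dg δ deg j a S = _)
      (fun ω h => Su_mul (fun j a S j' a' S' h1 h2 h3 _ => by
        rw [dg_add δ deg j j' a a' h3, h1, h2, zero_add]) hX' h)
      (fun ω h => Su_mul (fun j a S j' a' S' h1 h2 h3 _ => by
        rwa [dg_add δ deg j j' a a' h3, h1, zero_add]) hX' h))
    S T T0 TJ t ht rfl
  simpa only [LinearMap.mulLeft_apply, fn_mul, LinearMap.coe_restrictScalars] using this

end Gen

open N255.Core in
theorem wW_low {p : ℕ} {s : Type} [Fintype s] {Γ : Type} [AddCommGroup Γ] {δ : Γ}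
    (w : Wall p Γ δ s) {N La : ℕ} (h : 0 < La) (n : ℤ) :
    ∃ J0 : ℤ, ∀ x : Dr.Ix p s, n ≤ w.wW N La (ix x) → -J0 ≤ x.1 := by
  obtain ⟨C, hC⟩ := (Set.finite_range fun y : (s → Fin p) × Finset s =>
    w.wW N La (ix (0, y))).bddAbove
  refine ⟨|C - n|, fun x hx => ?_⟩
  have h1 : w.wW N La (ix (0, x.2)) ≤ C := hC ⟨x.2, rfl⟩
  have h2 : w.wW N La (ix x) = 2 * La * x.1 + w.wW N La (ix (0, x.2)) := by
    simp only [Wall.wW, wt, ix]; ring
  have h3 := le_abs_self (C - n)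
  have h4 := abs_nonneg (C - n)
  by_contra h5
  nlinarith

open N255.Core in
/-- **the dichotomy** -/
theorem dichG_holds : DichG := by
  intro p hp Γ _ δ s _ _ w N La hLa al hal
  obtain ⟨J0, hJ0⟩ := wW_low w (N := N) hLa (w.wW N La (w.ld true al))
  have hW : ∀ c : LA (ZMod p), c • O.bc (LA (ZMod p)) w.W ∈ (O.mx : Ideal _) ^ 2 := fun c => by
    rw [Algebra.smul_def]; exact Ideal.mul_mem_left _ _ (O.bc_mem_pow _ w.W2)
  have hE : w.Eu true * w.Eu false = 1 := by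
    simp only [Wall.Eu, if_true, Bool.false_eq_true, if_false, neg_smul]
    exact O.E_neg_mul (hW _)
  have hG : fn (w.Eu true) ∈ Su fun j a S => dg δ w.deg j a S = 0 := by
    refine E_mem_Su (by simp [dg]) (fun j a j' a' h1 h2 => ?_) (hW _) ?_
    · have := dg_add δ w.deg j j' a a' (disjoint_empty_left (∅ : Finset s))
      rwa [h1, h2, add_zero, union_empty] at this
    · rw [if_pos rfl, neg_smul, fn, map_neg, ← fn, fn_smul]
      refine neg_mem (Su_T (P := fun j a S => dg δ w.deg j a S = δ) (-1) (fun j a S h1 => ?_)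
        (fn_bc_mem fun a ha => by simpa [dg] using w.hom a ha))
      simp only [dg, add_smul] at h1 ⊢
      rw [add_assoc, add_assoc, ← add_assoc (j • δ), h1, neg_one_smul, neg_add_cancel]
  rcases dich_om3 δ w.deg (w.Eu false) (w.Eu true) hE hG {x | w.Hm N true (ix x)}
    {x | w.wW N La (w.ld true al) ≤ w.wW N La (ix x)} (|w.wW N La (w.ld true al)| + 1) J0
    (fun x hx => hJ0 x hx)
    (fun x hx => by
      have h1 := le_abs_self (w.wW N La (w.ld true al))
      have h2 := abs_nonneg (w.wW N La (w.ld true al))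
      have h3 : x.1 ≤ _ := le_wW w (N := N) hLa (ix x) (by change 0 ≤ x.1; omega)
      simp only [Set.mem_ofPred_eq]
      omega)
    (ld' w al) (by have := abs_nonneg (w.wW N La (w.ld true al)); change 0 < _; omega) with
    ⟨z, u, h1, h2, h3⟩ | ⟨z, u, h1, h2, h3⟩
  · refine Or.inl ⟨z, u, h2, In_of_Sp (fun x hx => hx) h1, In_of_Sp ?_ (by rwa [ub_eq] at h3)⟩
    rintro x ⟨⟨g1, g2⟩, g3⟩
    refine (if_pos rfl).mpr ⟨g2, fun be hbe e => g3 ?_⟩
    obtain rfl : x = ld' w be := ix_inj e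
    have e1 := dg_ld w be hbe
    rw [← dg_ld w al hal] at e1
    have e2 : w.deg be = w.deg al := add_left_cancel ((congrArg (· + w.deg be) g1).symm.trans e1)
    rw [w.inj be al hbe hal e2]
    rfl
  · refine Or.inr ⟨z, u, h2, In_of_Sp (fun y hy => ?_) h1,
      In_of_Sp (fun y hy => ?_) (by rwa [ub_eq, ix_cx_ld'] at h3)⟩
    · simp only [Set.mem_ofPred_eq, Wall.Hm, not_or, not_and, if_true] at hy
      by_cases e : ix y = w.h0 false y.1
      · have := hy.1 ((cx_h0 w).2 e)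
        refine Or.inl ⟨e, ?_⟩
        change ¬ 0 ≤ -1 - y.1 at this
        change 0 ≤ y.1
        omega
      · have e1 := hy.2 fun h' => e ((cx_h0 w).1 h')
        refine Or.inr ⟨e, (if_neg Bool.false_ne_true).mpr ?_⟩
        have e2 := wt_cx 0 (fun i => (N : ℤ) + w.F i) (fun i => (N : ℤ) + w.F i) y
        have e3 := wt_cx 0 (fun i => (N : ℤ) + w.F i) (fun i => (N : ℤ) + w.F i) (h0' w false)
        rw [ix_cx_h0', ix_h0'] at e3
        have e4 : w.wF N (w.h0 true (-1)) = w.wF N (w.h0 true 0) := by simp [Wall.wF, wt, Wall.h0]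
        simp only [Wall.wF] at e1 e4 ⊢
        omega
    · refine (if_neg Bool.false_ne_true).mpr ?_
      have e2 := wt_cx (2 * La) (fun i => if w.kd i = none then (La : ℤ) else N + w.F i)
        (fun i => (N : ℤ) + w.F i) y
      have e3 := wt_cx (2 * La) (fun i => if w.kd i = none then (La : ℤ) else N + w.F i)
        (fun i => (N : ℤ) + w.F i) (ld' w al)
      rw [ix_cx_ld', ix_ld'] at e3
      simp only [Set.mem_ofPred_eq, Wall.wW, not_le] at hy ⊢
      omega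

end N255.Ts
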