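import Mathlib

/-!
# Row 255, core (helper22): the abstract dichotomy

`V` has a basis indexed by `ℤ × M` (`u`-exponent, monomial), `B` is the residue pairing.
-/

set_option autoImplicit false

namespace N255.Ts

open Module

variable {k V I : Type*} [Field k] [AddCommGroup V] [Module k V]

/-- the span of the basis vectors with index in `T` -/
def Sp (e : Basis I k V) (T : Set I) : Submodule k V := Submodule.span k (e '' T)

theorem mem_Sp {e : Basis I k V} {T : Set I} {v : V} :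
    v ∈ Sp e T ↔ ∀ x, x ∉ T → e.repr v x = 0 := by
  rw [Sp, Basis.mem_span_image]
  exact ⟨fun h x hx => by_contra fun h0 => hx (h (Finsupp.mem_support_iff.2 h0)),
    fun h x hx => by_contra fun h0 => Finsupp.mem_support_iff.1 hx (h x h0)⟩

theorem basis_mem_Sp {e : Basis I k V} {T : Set I} {x : I} (hx : x ∈ T) : e x ∈ Sp e T :=
  Submodule.subset_span ⟨x, hx, rfl⟩

theorem Sp_mono {e : Basis I k V} {T T' : Set I} (h : T ⊆ T') : Sp e T ≤ Sp e T' :=
  Submodule.span_mono (Set.image_mono h)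

theorem Sp_le {W : Type*} [AddCommGroup W] [Module k W] {e : Basis I k V} {T : Set I}
    {f : V →ₗ[k] W} {N : Submodule k W} (h : ∀ x ∈ T, f (e x) ∈ N) {v : V} (hv : v ∈ Sp e T) :
    f v ∈ N :=
  (Submodule.span_le.2 (by rintro _ ⟨x, hx, rfl⟩; exact h x hx) : Sp e T ≤ N.comap f) hv

open Classical in
/-- the projection onto `Sp e T` -/
noncomputable def pr (e : Basis I k V) (T : Set I) : V →ₗ[k] V :=
  e.constr k fun x => if x ∈ T then e x else 0

open Classical in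
theorem pr_basis (e : Basis I k V) (T : Set I) (x : I) :
    pr e T (e x) = if x ∈ T then e x else 0 := by
  rw [pr, Basis.constr_basis]

open Classical in
theorem repr_pr (e : Basis I k V) (T : Set I) (v : V) (x : I) :
    e.repr (pr e T v) x = if x ∈ T then e.repr v x else 0 := by
  have : e.coord x ∘ₗ pr e T = if x ∈ T then e.coord x else 0 := e.ext fun y => by
    rw [LinearMap.comp_apply, pr_basis]
    by_cases hxy : y = x
    · subst hxy
      split_ifs <;> simp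
    · split_ifs <;> simp [Finsupp.single_eq_of_ne (Ne.symm hxy)]
  have h := LinearMap.congr_fun this v
  split_ifs at h ⊢ <;> simpa using h

theorem pr_mem (e : Basis I k V) (T : Set I) (v : V) : pr e T v ∈ Sp e T :=
  mem_Sp.2 fun x hx => by rw [repr_pr, if_neg hx]

theorem sub_pr_mem (e : Basis I k V) (T : Set I) (v : V) : v - pr e T v ∈ Sp e Tᶜ :=
  mem_Sp.2 fun x hx => by
    rw [map_sub, Finsupp.sub_apply, repr_pr, if_pos (not_not.1 hx), sub_self]

theorem pr_of_mem {e : Basis I k V} {T : Set I} {v : V} (hv : v ∈ Sp e T) : pr e T v = v :=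
  e.ext_elem fun x => by
    rw [repr_pr]
    split_ifs with h
    · rfl
    · exact (mem_Sp.1 hv x h).symm

theorem pr_of_mem_compl {e : Basis I k V} {T : Set I} {v : V} (hv : v ∈ Sp e Tᶜ) :
    pr e T v = 0 :=
  e.ext_elem fun x => by
    rw [repr_pr]
    split_ifs with h
    · simpa using mem_Sp.1 hv x (not_not.2 h)
    · simp

theorem pr_mem_inter {e : Basis I k V} {T T' : Set I} {v : V} (hv : v ∈ Sp e T') :
    pr e T v ∈ Sp e (T ∩ T') :=
  mem_Sp.2 fun x hx => by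
    rw [repr_pr]
    split_ifs with h
    · exact mem_Sp.1 hv x fun h' => hx ⟨h, h'⟩
    · rfl

/-- an operator that preserves `Sp T` and `Sp Tᶜ` commutes with the projection -/
theorem pr_comm {e : Basis I k V} {T : Set I} {f : V →ₗ[k] V}
    (h1 : ∀ x ∈ T, f (e x) ∈ Sp e T) (h2 : ∀ x, x ∉ T → f (e x) ∈ Sp e Tᶜ) (v : V) :
    pr e T (f v) = f (pr e T v) := by
  have h : f v = f (pr e T v) + f (v - pr e T v) := by rw [← map_add, add_sub_cancel]
  rw [h, map_add, pr_of_mem (Sp_le h1 (pr_mem e T v)),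
    pr_of_mem_compl (Sp_le h2 (sub_pr_mem e T v)), add_zero]

/-- a monomial perfect pairing -/
structure Pf (e : Basis I k V) (B : V →ₗ[k] V →ₗ[k] k) (c : I → I) : Prop where
  cc : ∀ x, c (c x) = x
  ne : ∀ x, B (e x) (e (c x)) ≠ 0
  eq : ∀ x y, y ≠ c x → B (e x) (e y) = 0

namespace Pf

variable {e : Basis I k V} {B : V →ₗ[k] V →ₗ[k] k} {c : I → I}

theorem right (h : Pf e B c) (x : I) (v : V) :
    B (e x) v = B (e x) (e (c x)) * e.repr v (c x) := by
  have : B (e x) = B (e x) (e (c x)) • e.coord (c x) := e.ext fun y => by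
    by_cases hy : y = c x
    · subst hy; simp
    · simp [h.eq x y hy, Finsupp.single_eq_of_ne (Ne.symm hy)]
  conv_lhs => rw [this]
  simp

theorem left (h : Pf e B c) (x : I) (v : V) :
    B v (e (c x)) = B (e x) (e (c x)) * e.repr v x := by
  have : B.flip (e (c x)) = B (e x) (e (c x)) • e.coord x := e.ext fun y => by
    by_cases hy : y = x
    · subst hy; simp
    · have : c x ≠ c y := fun h' => hy (by rw [← h.cc y, ← h', h.cc])
      simp [h.eq y _ this, Finsupp.single_eq_of_ne (Ne.symm hy)]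
  simpa using LinearMap.congr_fun this v

theorem perp (h : Pf e B c) {T : Set I} {v : V} (hv : ∀ x ∈ T, B (e x) v = 0) :
    v ∈ Sp e {y | c y ∉ T} :=
  mem_Sp.2 fun y hy => by
    have h1 := hv (c y) (not_not.1 hy)
    rw [h.right, h.cc] at h1
    exact (mul_eq_zero.1 h1).resolve_left (by simpa only [h.cc] using h.ne (c y))

theorem nondeg (h : Pf e B c) {v : V} (hv : ∀ z, B z v = 0) : v = 0 := by
  have := h.perp (T := Set.univ) fun x _ => hv _
  simpa [Sp] using this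

/-- functionals with finite support are represented -/
theorem rep (h : Pf e B c) (f : V →ₗ[k] k) (hf : {x | f (e x) ≠ 0}.Finite) :
    ∃ v, ∀ z, B z v = f z := by
  refine ⟨∑ x ∈ hf.toFinset, (f (e x) / B (e x) (e (c x))) • e (c x), fun z => ?_⟩
  refine LinearMap.congr_fun (f := B.flip _) (g := f) (e.ext fun y => ?_) z
  rw [LinearMap.flip_apply, map_sum, Finset.sum_eq_single y]
  · rw [map_smul, smul_eq_mul, div_mul_cancel₀ _ (h.ne y)]
  · intro x _ hxy
    rw [map_smul, h.eq y (c x) fun h' => hxy (by rw [← h.cc x, h', h.cc]), smul_zero]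
  · intro hy
    have : f (e y) = 0 := by simpa using hy
    simp [this]

end Pf

/-- extension of a functional from `L` that kills `Z` -/
theorem exists_ext (L Z : Submodule k V) (g : V →ₗ[k] k) (h : ∀ v ∈ L, v ∈ Z → g v = 0) :
    ∃ f : V →ₗ[k] k, (∀ v ∈ L, f v = g v) ∧ ∀ v ∈ Z, f v = 0 := by
  have h1 : g ∈ (L ⊓ Z).dualAnnihilator :=
    (Submodule.mem_dualAnnihilator _).2 fun v hv => h v hv.1 hv.2
  rw [Subspace.dualAnnihilator_inf_eq, Submodule.mem_sup] at h1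
  obtain ⟨a, ha, f, hf, rfl⟩ := h1
  exact ⟨f, fun v hv => by
    rw [LinearMap.add_apply, (Submodule.mem_dualAnnihilator _).1 ha v hv, zero_add],
    (Submodule.mem_dualAnnihilator _).1 hf⟩

/-- **abstract dichotomy** -/
theorem dich {M : Type*} [Finite M] {e : Basis (ℤ × M) k V} {B : V →ₗ[k] V →ₗ[k] k}
    {c : ℤ × M → ℤ × M} (hB : Pf e B c) (d E E' σ : V →ₗ[k] V) (N J : ℤ)
    (hσ : Function.Surjective σ) (hd : ∀ z v, B (d z) v = -B (σ z) (d v))
    (hE : ∀ z v, B (E z) v = B z (E v)) (hE' : ∀ z, E' (E z) = z)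
    (d1 : ∀ n : ℤ, ∀ x, d (e (n, x)) ∈ Sp e {y | y.1 = n})
    (E1 : ∀ n : ℤ, ∀ x, E (e (n, x)) ∈ Sp e {y | n - N ≤ y.1})
    (E2 : ∀ n : ℤ, ∀ x, E' (e (n, x)) ∈ Sp e {y | n - N ≤ y.1})
    (T : Set (ℤ × M)) (T0 : ∀ x ∈ T, 0 ≤ x.1) (TJ : ∀ x : ℤ × M, J ≤ x.1 → x ∈ T) (t : ℤ × M)
    (ht : t.1 < J) :
    (∃ z, E' (d z) ∈ Sp e T ∧ e.repr (E' (d z)) t ≠ 0) ∨
      ∃ v, d v = 0 ∧ E v - e (c t) ∈ Sp e {y | c y ∉ T} := by
  refine or_iff_not_imp_left.2 fun h => ?_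
  push Not at h
  obtain ⟨f, f1, f2⟩ := exists_ext (Sp e T) (LinearMap.range (E' ∘ₗ d)) (B.flip (e (c t))) (by
    rintro _ hv ⟨z, rfl⟩
    rw [LinearMap.flip_apply, hB.left, LinearMap.comp_apply, h z hv, mul_zero])
  have f3 : ∀ v ∈ Sp e {y : ℤ × M | J ≤ y.1}, f v = 0 := fun v hv => by
    rw [f1 v (Sp_mono (fun y hy => TJ y hy) hv), LinearMap.flip_apply, hB.left,
      mem_Sp.1 hv t (not_le.2 ht), mul_zero]
  obtain ⟨v, hv⟩ := hB.rep (f ∘ₗ E' ∘ₗ pr e {y | -N ≤ y.1}) (by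
    refine ((Set.finite_Icc (-N) (J + N)).prod (Set.finite_univ (α := M))).subset ?_
    rintro ⟨n, x⟩ hx
    simp only [Set.mem_ofPred_eq, LinearMap.comp_apply, pr_basis] at hx
    refine ⟨⟨by_contra fun h0 => hx (by rw [if_neg h0, map_zero, map_zero]), ?_⟩, trivial⟩
    by_contra h0
    refine hx ?_
    split_ifs
    · exact f3 _ (Sp_mono (fun y hy => by
        simp only [Set.mem_ofPred_eq, not_le] at hy h0 ⊢; omega) (E2 n x))
    · rw [map_zero, map_zero])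
  refine ⟨v, hB.nondeg fun z => ?_, hB.perp fun x hx => ?_⟩
  · obtain ⟨z, rfl⟩ := hσ z
    rw [← neg_eq_zero, ← hd, hv, LinearMap.comp_apply, LinearMap.comp_apply,
      pr_comm (fun x hx => Sp_mono (fun y hy => ?_) (d1 x.1 x.2))
        fun x hx => Sp_mono (fun y hy => ?_) (d1 x.1 x.2)]
    · exact f2 _ ⟨_, rfl⟩
    · simp only [Set.mem_ofPred_eq] at hx hy ⊢; omega
    · simp only [Set.mem_ofPred_eq, Set.mem_compl_iff] at hx hy ⊢; omega
  · rw [map_sub, ← hE, hv, LinearMap.comp_apply, LinearMap.comp_apply,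
      pr_of_mem (Sp_mono (fun y hy => ?_) (E1 x.1 x.2)), hE', f1 _ (basis_mem_Sp hx),
      LinearMap.flip_apply, sub_self]
    have := T0 x hx
    simp only [Set.mem_ofPred_eq] at hy ⊢
    omega

/-- a functional restricted to a window of `u`-degrees is represented -/
theorem Pf.rep_win {M : Type*} [Finite M] {e : Basis (ℤ × M) k V} {B : V →ₗ[k] V →ₗ[k] k}
    {c : ℤ × M → ℤ × M} (hB : Pf e B c) (f : V →ₗ[k] k) (a b : ℤ) :
    ∃ v, ∀ z, B z v = f (pr e {y | a ≤ y.1 ∧ y.1 ≤ b} z) := by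
  refine hB.rep (f ∘ₗ pr e {y | a ≤ y.1 ∧ y.1 ≤ b}) ?_
  refine ((Set.finite_Icc a b).prod (Set.finite_univ (α := M))).subset ?_
  rintro ⟨n, x⟩ hx
  simp only [Set.mem_ofPred_eq, LinearMap.comp_apply, pr_basis] at hx
  exact ⟨by_contra fun h0 => hx (by rw [if_neg (show ¬(a ≤ n ∧ n ≤ b) from h0), map_zero]),
    trivial⟩

theorem pr_deg {M : Type*} {e : Basis (ℤ × M) k V} {d : V →ₗ[k] V}
    (d1 : ∀ n : ℤ, ∀ x, d (e (n, x)) ∈ Sp e {y | y.1 = n}) (P : ℤ → Prop) (v : V) :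
    pr e {y | P y.1} (d v) = d (pr e {y | P y.1} v) :=
  pr_comm (fun x hx => Sp_mono (fun y hy => by
      simp only [Set.mem_ofPred_eq] at hx hy ⊢; rwa [hy]) (d1 x.1 x.2))
    (fun x hx => Sp_mono (fun y hy => by
      simp only [Set.mem_ofPred_eq, Set.mem_compl_iff] at hx hy ⊢; rwa [hy]) (d1 x.1 x.2)) v

/-- a vector orthogonal to the closed vectors of `Sp S` is exact modulo the annihilator -/
theorem perp_split {M : Type*} [Finite M] {e : Basis (ℤ × M) k V} {B : V →ₗ[k] V →ₗ[k] k}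
    {c : ℤ × M → ℤ × M} (hB : Pf e B c) (d : V →ₗ[k] V)
    (hd' : ∀ w, ∃ w', ∀ z, B (d z) w = B z (d w'))
    (d1 : ∀ n : ℤ, ∀ x, d (e (n, x)) ∈ Sp e {y | y.1 = n}) (S : Set (ℤ × M)) {v : V}
    (hv : ∀ w ∈ Sp e S, d w = 0 → B w v = 0) :
    ∃ z s, s ∈ Sp e {y | c y ∉ S} ∧ v = d z + s := by
  obtain ⟨f, f1, f2⟩ := exists_ext (LinearMap.ker d) (Sp e S) (B.flip v)
    fun w h1 h2 => hv w h2 h1
  obtain ⟨a, ha⟩ := (((e.repr v).support.finite_toSet.image fun y => (c y).1)).bddBelow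
  obtain ⟨b, hb⟩ := (((e.repr v).support.finite_toSet.image fun y => (c y).1)).bddAbove
  have hw : ∀ z, B (pr e {y | a ≤ y.1 ∧ y.1 ≤ b} z) v = B z v := fun z => by
    refine LinearMap.congr_fun (f := B.flip v ∘ₗ pr e {y | a ≤ y.1 ∧ y.1 ≤ b}) (g := B.flip v)
      (e.ext fun x => ?_) z
    simp only [LinearMap.comp_apply, pr_basis, LinearMap.flip_apply]
    split_ifs with h
    · rfl
    · rw [map_zero, LinearMap.zero_apply, hB.right]
      have : e.repr v (c x) = 0 := by_contra fun h0 => h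
        ⟨ha ⟨c x, Finsupp.mem_support_iff.2 h0, by simp only [hB.cc]⟩,
          hb ⟨c x, Finsupp.mem_support_iff.2 h0, by simp only [hB.cc]⟩⟩
      rw [this, mul_zero]
  obtain ⟨s, hs⟩ := hB.rep_win f a b
  obtain ⟨φ, hφ⟩ : ∃ φ : V →ₗ[k] k, ∀ z, φ (d z) = B z v - f z := by
    have : B.flip v - f ∈ (LinearMap.ker d).dualAnnihilator :=
      (Submodule.mem_dualAnnihilator _).2 fun w hw => by
        rw [LinearMap.sub_apply, f1 w hw, sub_self]
    rw [← LinearMap.range_dualMap_eq_dualAnnihilator_ker] at this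
    obtain ⟨φ, hφ⟩ := this
    exact ⟨φ, fun z => LinearMap.congr_fun hφ z⟩
  obtain ⟨w, hw1⟩ := hB.rep_win φ a b
  obtain ⟨w', hw'⟩ := hd' w
  refine ⟨w', s, hB.perp fun x hx => ?_, ?_⟩
  · rw [hs, f2 _ (Sp_mono Set.inter_subset_right (pr_mem_inter (basis_mem_Sp hx)))]
  · rw [← sub_eq_zero]
    refine hB.nondeg fun z => ?_
    rw [map_sub, map_add, ← hw', hw1, pr_deg d1 fun j => a ≤ j ∧ j ≤ b, hφ, hw, hs]
    ring

/-- **abstract dichotomy, true form** (closed vectors of `Sp S` allowed, graded projection) -/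
theorem dich2 {M : Type*} [Finite M] {e : Basis (ℤ × M) k V} {B : V →ₗ[k] V →ₗ[k] k}
    {c : ℤ × M → ℤ × M} (hB : Pf e B c) (d E E' σ : V →ₗ[k] V) (N J : ℤ)
    (hσ : Function.Surjective σ) (hd : ∀ z v, B (d z) v = -B (σ z) (d v))
    (hd' : ∀ w, ∃ w', ∀ z, B (d z) w = B z (d w')) (dd : ∀ z, d (d z) = 0)
    (hE : ∀ z v, B (E z) v = B z (E v)) (hE' : ∀ z, E' (E z) = z)
    (d1 : ∀ n : ℤ, ∀ x, d (e (n, x)) ∈ Sp e {y | y.1 = n})
    (E1 : ∀ n : ℤ, ∀ x, E (e (n, x)) ∈ Sp e {y | n - N ≤ y.1})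
    (E2 : ∀ n : ℤ, ∀ x, E' (e (n, x)) ∈ Sp e {y | n - N ≤ y.1})
    (G : Set (ℤ × M)) (Gd : ∀ v, pr e G (d v) = d (pr e G v))
    (GE : ∀ v, pr e G (E' v) = E' (pr e G v)) (S T : Set (ℤ × M))
    (T0 : ∀ x ∈ T, 0 ≤ x.1) (TJ : ∀ x : ℤ × M, J ≤ x.1 → x ∈ T) (t : ℤ × M)
    (ht : t.1 < J) (tG : t ∈ G) :
    (∃ z s, s ∈ Sp e S ∧ d s = 0 ∧ E' (d z + s) - e t ∈ Sp e ((G ∩ T) \ {t})) ∨
      ∃ z s, s ∈ Sp e {y | c y ∉ S} ∧ d s = 0 ∧
        E (d z + s) - e (c t) ∈ Sp e {y | c y ∉ T} := by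
  by_cases h : ∃ z s, s ∈ Sp e S ∧ d s = 0 ∧ E' (d z + s) ∈ Sp e T ∧
      e.repr (E' (d z + s)) t ≠ 0
  · obtain ⟨z, s, h1, h2, h3, h4⟩ := h
    set a := (e.repr (E' (d z + s)) t)⁻¹ with ha
    refine Or.inl ⟨pr e G (a • z), pr e G (a • s),
      Sp_mono Set.inter_subset_right (pr_mem_inter (Submodule.smul_mem _ a h1)),
      by rw [← Gd, map_smul, h2, smul_zero, map_zero], mem_Sp.2 fun x hx => ?_⟩
    rw [← Gd, ← map_add, ← GE, map_smul, ← smul_add, map_smul, map_sub, Finsupp.sub_apply,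
      repr_pr, map_smul, Finsupp.smul_apply, smul_eq_mul, Basis.repr_self]
    by_cases hxt : x = t
    · subst hxt
      rw [if_pos tG, ha, inv_mul_cancel₀ h4, Finsupp.single_eq_same, sub_self]
    · rw [Finsupp.single_eq_of_ne hxt, sub_zero]
      split_ifs with hG
      · rw [mem_Sp.1 h3 x fun hT => hx ⟨⟨hG, hT⟩, hxt⟩, mul_zero]
      · rfl
  refine Or.inr ?_
  push Not at h
  obtain ⟨f, f1, f2⟩ := exists_ext (Sp e T)
    ((LinearMap.range d ⊔ (Sp e S ⊓ LinearMap.ker d)).map E') (B.flip (e (c t))) (by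
    rintro _ hv ⟨w, hw, rfl⟩
    obtain ⟨_, ⟨z, rfl⟩, s, hs, rfl⟩ := Submodule.mem_sup.1 hw
    rw [LinearMap.flip_apply, hB.left, h z s hs.1 hs.2 hv, mul_zero])
  have f3 : ∀ v ∈ Sp e {y : ℤ × M | J ≤ y.1}, f v = 0 := fun v hv => by
    rw [f1 v (Sp_mono (fun y hy => TJ y hy) hv), LinearMap.flip_apply, hB.left,
      mem_Sp.1 hv t (not_le.2 ht), mul_zero]
  obtain ⟨v, hv⟩ := hB.rep (f ∘ₗ E' ∘ₗ pr e {y | -N ≤ y.1}) (by
    refine ((Set.finite_Icc (-N) (J + N)).prod (Set.finite_univ (α := M))).subset ?_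
    rintro ⟨n, x⟩ hx
    simp only [Set.mem_ofPred_eq, LinearMap.comp_apply, pr_basis] at hx
    refine ⟨⟨by_contra fun h0 => hx (by rw [if_neg h0, map_zero, map_zero]), ?_⟩, trivial⟩
    by_contra h0
    refine hx ?_
    split_ifs
    · exact f3 _ (Sp_mono (fun y hy => by
        simp only [Set.mem_ofPred_eq, not_le] at hy h0 ⊢; omega) (E2 n x))
    · rw [map_zero, map_zero])
  have hv0 : d v = 0 := hB.nondeg fun z => by
    obtain ⟨z, rfl⟩ := hσ z
    rw [← neg_eq_zero, ← hd, hv, LinearMap.comp_apply, LinearMap.comp_apply,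
      pr_deg d1 fun j => -N ≤ j]
    exact f2 _ ⟨_, Submodule.mem_sup_left ⟨_, rfl⟩, rfl⟩
  obtain ⟨z, s, hs, rfl⟩ := perp_split hB d hd' d1 S (v := v) fun w h1 h2 => by
    rw [hv, LinearMap.comp_apply, LinearMap.comp_apply]
    refine f2 _ ⟨_, Submodule.mem_sup_right
      ⟨Sp_mono Set.inter_subset_right (pr_mem_inter h1), ?_⟩, rfl⟩
    change d _ = 0
    rw [← pr_deg d1 fun j => -N ≤ j, h2, map_zero]
  refine ⟨z, s, hs, by rwa [map_add, dd, zero_add] at hv0, hB.perp fun x hx => ?_⟩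
  rw [map_sub, ← hE, hv, LinearMap.comp_apply, LinearMap.comp_apply,
    pr_of_mem (Sp_mono (fun y hy => ?_) (E1 x.1 x.2)), hE', f1 _ (basis_mem_Sp hx),
    LinearMap.flip_apply, sub_self]
  have := T0 x hx
  simp only [Set.mem_ofPred_eq] at hy ⊢
  omega

end N255.Ts
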