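import Crest.Agent.N255.Dr.Lu
import Crest.Agent.N255.Core.Stm

/-!
# Row 255, core (helper22): the dichotomy `DichS`
-/

set_option autoImplicit false

namespace N255.Ts

open Finset Module LaurentPolynomial N255.Dr N255.Dr.Om

section Gen
variable {p : ℕ} {k : Type} [Field k] {σ : Type} [Fintype σ] [DecidableEq σ]

/-- the residue pairing -/
noncomputable def Bp (p : ℕ) (k : Type) [Field k] (σ : Type) [Fintype σ] :
    Om p (LA k) σ →ₗ[k] Om p (LA k) σ →ₗ[k] k :=
  (LinearMap.mul k (Om p (LA k) σ)).compr₂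
    (cT (-1) ∘ₗ (int : Om p (LA k) σ →ₗ[LA k] LA k).restrictScalars k)

omit [DecidableEq σ] in
theorem Bp_apply (a b : Om p (LA k) σ) : Bp p k σ a b = cT (-1) (int (a * b)) := rfl

/-- the complementary monomial -/
def cx (x : Ix p σ) : Ix p σ := (-1 - x.1, fun i => (x.2.1 i).rev, x.2.2ᶜ)

theorem cx_cx (x : Ix p σ) : cx (cx x) = x := by
  obtain ⟨j, a, S⟩ := x
  simp [cx]

theorem pf_Bp [hp : Fact p.Prime] : Pf (ub : Basis (Ix p σ) k (Om p (LA k) σ)) (Bp p k σ) cx := by
  refine ⟨cx_cx, fun x => ?_, fun x y hy => ?_⟩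
  · rw [Bp_apply, ub_apply, ub_apply, int_mu_mul, if_pos, map_zsmul, cT_T, if_pos (by simp [cx])]
    · intro h
      have := sg_compl_sq (K := k) x.2.2
      rw [zsmul_eq_mul, mul_one] at h
      rw [h, mul_zero] at this
      exact zero_ne_one this
    · refine ⟨funext fun i => ?_, rfl⟩
      have := (x.2.1 i).2
      simp only [cx, Pi.add_apply, Fin.val_rev, top]
      omega
  · rw [Bp_apply, ub_apply, ub_apply, int_mu_mul]
    split_ifs with h
    · rw [map_zsmul, cT_T, if_neg, smul_zero]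
      intro h1
      refine hy (Prod.ext (by simp only [cx]; omega) (Prod.ext (funext fun i => Fin.ext ?_) h.2))
      have := congrFun h.1 i
      simp only [cx, Pi.add_apply, Fin.val_rev, top] at this ⊢
      omega
    · rw [map_zero]

/-- the exponential lies in every multiplicatively closed span containing the exponent -/
theorem E_mem_Su [Fact p.Prime] [Fact ((p : k) = 0)] {P : ℤ → (σ → ℕ) → Finset σ → Prop}
    (h1 : P 0 0 ∅) (hm : ∀ j a j' a', P j a ∅ → P j' a' ∅ → P (j + j') (a + a') ∅)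
    {X : O p (LA k) σ} (h2 : X ∈ (O.mx : Ideal (O p (LA k) σ)) ^ 2) (hX : fn X ∈ Su P) :
    fn (O.E X) ∈ Su P := by
  have e1 : ∀ {f : O p (LA k) σ}, fn f ∈ Su P → fn f ∈ Su fun j a S => P j a S ∧ S = ∅ :=
    fun h => fn_mem_Su.2 fun j a hne => ⟨fn_mem_Su.1 h j a hne, rfl⟩
  let A : Subsemiring (O p (LA k) σ) :=
    { carrier := {f | fn f ∈ Su P}
      zero_mem' := by simp
      one_mem' := by
        change fn 1 ∈ Su P
        rw [fn, map_one, ← mu_one]; exact mu_mem fun _ => h1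
      add_mem' := fun ha hb => by
        change fn _ ∈ Su P
        rw [fn, map_add]; exact add_mem ha hb
      mul_mem' := fun ha hb => by
        change fn _ ∈ Su P
        rw [fn, map_mul]
        refine Su_mul ?_ (e1 ha) (e1 hb)
        rintro j a S j' a' S' ⟨h3, rfl⟩ ⟨h4, rfl⟩ - -
        simpa using hm _ _ _ _ h3 h4 }
  have e2 : ∀ a : σ → ℕ, O.cf a X • (O.zm a : O p (LA k) σ) ∈ (O.mx : Ideal _) ^ 2 := fun a => by
    by_cases ha : ∑ i, a i < 2
    · rw [O.cf_eq_zero_of_mem_pow h2 ha, zero_smul]; exact zero_mem _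
    · rw [Algebra.smul_def]
      exact Ideal.mul_mem_left _ _ (Ideal.pow_le_pow_right (not_lt.1 ha) (O.zm_mem_pow a))
  change O.E X ∈ A
  rw [← O.sum_cf X, O.E_sum _ _ fun a _ => e2 a]
  refine prod_mem fun a _ => ?_
  by_cases ha : ∑ i, a i < 2
  · rw [O.cf_eq_zero_of_mem_pow h2 ha, zero_smul, O.E_zero]; exact one_mem _
  · rw [O.E_monomial _ (not_lt.1 ha)]
    refine tx_mem A p (fn_mem_Su.2 fun j b hne => ?_)
    rw [map_smul, O.cf_zm] at hne
    split_ifs at hne with h
    · obtain ⟨rfl, -⟩ := h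
      exact fn_mem_Su.1 hX j _ (by simpa using hne)
    · simp at hne

omit [DecidableEq σ] in
theorem exists_low (ω : Om p (LA k) σ) : ∃ N : ℤ, ω ∈ Su fun j _ _ => -N ≤ j := by
  obtain ⟨a, ha⟩ := ((ub.repr ω).support.finite_toSet.image fun y => y.1).bddBelow
  exact ⟨-a, mem_Sp.2 fun x hx => by_contra fun h0 =>
    hx (by simpa using ha ⟨x, Finsupp.mem_support_iff.2 h0, rfl⟩)⟩

variable {Γ : Type} [AddCommGroup Γ]

/-- the degree of a monomial -/
def dg (δ : Γ) (deg : σ → Γ) (j : ℤ) (a : σ → ℕ) (S : Finset σ) : Γ :=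
  j • δ + ∑ i, a i • deg i + ∑ i ∈ S, deg i

theorem dg_add (δ : Γ) (deg : σ → Γ) (j j' : ℤ) (a a' : σ → ℕ) {S S' : Finset σ}
    (h : Disjoint S S') :
    dg δ deg (j + j') (a + a') (S ∪ S') = dg δ deg j a S + dg δ deg j' a' S' := by
  simp only [dg, add_smul, Pi.add_apply, sum_add_distrib, sum_union h]
  abel

theorem sum_sub_single {M : Type*} [AddCommGroup M] (f : σ → M) {a : σ → ℕ} {i : σ}
    (h : 0 < a i) : ∑ j, (a - Pi.single i 1 : σ → ℕ) j • f j = ∑ j, a j • f j - f i := by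
  have h1 : a = (a - Pi.single i 1) + Pi.single i 1 := by
    funext j
    by_cases hj : j = i
    · subst hj; simp; omega
    · simp [Pi.single_eq_of_ne hj]
  conv_rhs => rw [h1]
  simp only [Pi.add_apply, add_smul, sum_add_distrib]
  rw [Finset.sum_eq_single i (f := fun j => (Pi.single i 1 : σ → ℕ) j • f j)
    (fun j _ hj => by simp [Pi.single_eq_of_ne hj]) (by simp)]
  simp

theorem dg_d (δ : Γ) (deg : σ → Γ) (j : ℤ) {a : σ → ℕ} {S : Finset σ} {i : σ} (h : 0 < a i)
    (hi : i ∉ S) : dg δ deg j (a - Pi.single i 1) (insert i S) = dg δ deg j a S := by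
  simp only [dg, sum_sub_single deg h, sum_insert hi]
  abel

omit [DecidableEq σ] in
theorem pu_comm {P : ℤ → (σ → ℕ) → Finset σ → Prop} {f : Om p (LA k) σ →ₗ[k] Om p (LA k) σ}
    (h1 : ∀ ω ∈ Su P, f ω ∈ Su P)
    (h2 : ∀ ω ∈ Su fun j a S => ¬ P j a S, f ω ∈ Su fun j a S => ¬ P j a S) (ω : Om p (LA k) σ) :
    pu P (f ω) = f (pu P ω) :=
  pr_comm (fun _ hx => h1 _ (basis_mem_Sp hx)) (fun _ hx => h2 _ (basis_mem_Sp hx)) ω

theorem int_inv {K : Type} [CommRing K] [Fact p.Prime] (ω : Om p K σ) :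
    int (inv ω) = (-1 : ℤ) ^ Fintype.card σ • int ω := by
  induction ω using ind_mon with
  | h0 => simp
  | hadd a b ha hb => simp only [map_add, ha, hb, smul_add]
  | hm c a S ha =>
    rw [inv_smul, map_smul, map_smul, smul_comm, inv_mon, map_zsmul, int_mon]
    split_ifs with h
    · rw [h.2, card_univ]
    · simp

/-- the dichotomy on forms -/
theorem dich_om [Fact p.Prime] [Fact ((p : k) = 0)] (δ : Γ) (deg : σ → Γ) (X X' : O p (LA k) σ)
    (hX : X' * X = 1) (hX' : fn X' ∈ Su fun j a S => dg δ deg j a S = 0)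
    (S T : Set (Ix p σ)) (J : ℤ) (T0 : ∀ x ∈ T, 0 ≤ x.1) (TJ : ∀ x : Ix p σ, J ≤ x.1 → x ∈ T)
    (t : Ix p σ) (ht : t.1 < J) :
    (∃ z s : Om p (LA k) σ, s ∈ Sp ub S ∧ d s = 0 ∧ X' • (d z + s) - ub t ∈
      Sp ub (({x : Ix p σ | dg δ deg x.1 (fun i => (x.2.1 i : ℕ)) x.2.2 =
        dg δ deg t.1 (fun i => (t.2.1 i : ℕ)) t.2.2} ∩ T) \ {t})) ∨
      ∃ z s : Om p (LA k) σ, s ∈ Sp ub {y | cx y ∉ S} ∧ d s = 0 ∧
        X • (d z + s) - ub (cx t) ∈ Sp ub {y | cx y ∉ T} := by
  obtain ⟨N, hN⟩ := exists_low (fn X)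
  obtain ⟨N', hN'⟩ := exists_low (fn X')
  have low : ∀ (Y : O p (LA k) σ) (M : ℤ), fn Y ∈ Su (fun j _ _ => -M ≤ j) → M ≤ max N N' →
      ∀ (n : ℤ) (x : (σ → Fin p) × Finset σ), LinearMap.mulLeft k (fn Y) (ub (n, x)) ∈
        Sp ub {y : Ix p σ | n - max N N' ≤ y.1} := fun Y M hY hM n x =>
    Su_mul (Q := fun j _ _ => j = n) (R := fun j _ _ => n - max N N' ≤ j)
      (fun j a S j' a' S' h1 h2 _ _ => by omega) hY (basis_mem_Sp (x := (n, x)) rfl)
  have := dich2 (e := (ub : Basis (Ix p σ) k (Om p (LA k) σ))) pf_Bp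
    ((d : Om p (LA k) σ →ₗ[LA k] _).restrictScalars k) (LinearMap.mulLeft k (fn X))
    (LinearMap.mulLeft k (fn X'))
    ((inv.toLinearMap : Om p (LA k) σ →ₗ[O p (LA k) σ] _).restrictScalars k) (max N N') J
    (fun z => ⟨inv z, inv_inv z⟩)
    (fun z v => by
      change cT _ (int (d z * v)) = -cT _ (int (inv z * d v))
      rw [int_d_mul, map_neg])
    (fun w => ⟨(-1 : ℤ) ^ Fintype.card σ • inv w, fun z => by
      change cT _ (int (d z * w)) = cT _ (int (z * d ((-1 : ℤ) ^ Fintype.card σ • inv w)))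
      rw [int_d_mul, map_zsmul, mul_smul_comm, map_zsmul, ← int_inv, map_mul inv, inv_d,
        Om.inv_inv,        mul_neg, map_neg int]⟩)
    (fun z => d_d z)
    (fun z v => by
      change cT _ (int (fn X * z * v)) = cT _ (int (z * (fn X * v)))
      rw [← comm_of_even (inv_fn X), mul_assoc])
    (fun z => by
      change fn X' * (fn X * z) = z
      rw [← mul_assoc, ← map_mul, hX, map_one, one_mul])
    (fun n x => Su_d (P := fun j _ _ => j = n) (Q := fun j _ _ => j = n)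
      (fun j a S i h _ _ => h) (basis_mem_Sp (x := (n, x)) rfl))
    (low X N hN (le_max_left _ _)) (low X' N' hN' (le_max_right _ _))
    {x : Ix p σ | dg δ deg x.1 (fun i => (x.2.1 i : ℕ)) x.2.2 =
        dg δ deg t.1 (fun i => (t.2.1 i : ℕ)) t.2.2}
    (pu_comm (P := fun j a S => dg δ deg j a S = _)
      (fun ω h => Su_d (fun j a S i h1 h2 h3 => by rw [dg_d δ deg j h2 h3, h1]) h)
      (fun ω h => Su_d (fun j a S i h1 h2 h3 => by rwa [dg_d δ deg j h2 h3]) h))
    (pu_comm (P := fun j a S => dg δ deg j a S = _)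
      (fun ω h => Su_mul (fun j a S j' a' S' h1 h2 h3 _ => by
        rw [dg_add δ deg j j' a a' h3, h1, h2, zero_add]) hX' h)
      (fun ω h => Su_mul (fun j a S j' a' S' h1 h2 h3 _ => by
        rwa [dg_add δ deg j j' a a' h3, h1, zero_add]) hX' h))
    S T T0 TJ t ht rfl
  simpa only [LinearMap.mulLeft_apply, fn_mul, LinearMap.coe_restrictScalars] using this

end Gen

section Wall
open N255.Core

variable {p : ℕ} [hp : Fact p.Prime] {s : Type} [Fintype s] [DecidableEq s]

/-- forget the bounds -/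
def ix (x : Dr.Ix p s) : Core.Ix s := (x.1, fun i => (x.2.1 i : ℕ), x.2.2)

omit hp [Fintype s] [DecidableEq s] in
theorem ix_inj {x y : Dr.Ix p s} (h : ix x = ix y) : x = y := by
  obtain ⟨h1, h2⟩ := Prod.ext_iff.1 h
  obtain ⟨h2, h3⟩ := Prod.ext_iff.1 h2
  exact Prod.ext h1 (Prod.ext (funext fun i => Fin.ext (congrFun h2 i)) h3)

omit [DecidableEq s] in
theorem In_of_Sp {P : Core.Ix s → Prop} {T : Set (Dr.Ix p s)} (h : ∀ x ∈ T, P (ix x))
    {ω : Om p (LA (ZMod p)) s} (hω : ω ∈ Sp ub T) : In P ω := by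
  have h1 : ω ∈ Su fun j a S => P (j, a, S) := by
    rw [Su]
    exact Sp_mono h hω
  intro x hx
  refine mem_Su.1 h1 x.1 x.2.1 x.2.2 ?_
  rw [cu_apply, cT_apply]
  exact hx

omit [DecidableEq s] in
theorem ub_eq (x : Dr.Ix p s) : (ub x : Om p (LA (ZMod p)) s) = Core.mu (ix x) := ub_apply x

omit hp in
theorem wt_cx (wu : ℤ) (wz wd : s → ℤ) (x : Dr.Ix p s) :
    wt wu wz wd (ix (cx x)) + wt wu wz wd (ix x) = -wu + ∑ i, ((p : ℤ) - 1) * wz i + ∑ i, wd i := by
  have h1 : ∑ i, (((x.2.1 i).rev : ℕ) : ℤ) * wz i + ∑ i, ((x.2.1 i : ℕ) : ℤ) * wz i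
      = ∑ i, ((p : ℤ) - 1) * wz i := by
    rw [← sum_add_distrib]
    refine sum_congr rfl fun i _ => ?_
    have := (x.2.1 i).2
    rw [← add_mul, Fin.val_rev]
    congr 1
    omega
  have h2 := sum_compl_add_sum x.2.2 wd
  simp only [wt, ix, cx]
  linear_combination h1 + h2

variable {Γ : Type} [AddCommGroup Γ] {δ : Γ} (w : Wall p Γ δ s)

omit hp in
theorem nr_compl : (w.nr true)ᶜ = w.nr false := by
  ext i
  simp only [Wall.nr, mem_compl, mem_filter, mem_univ, true_and]
  rcases w.kd i with _ | _ | _ <;> simp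

omit hp in
theorem mem_nr_false {i : s} : i ∈ w.nr false ↔ i ∉ w.nr true := by
  rw [← nr_compl, mem_compl]

theorem cx_h0 {y : Dr.Ix p s} : ix (cx y) = w.h0 true (cx y).1 ↔ ix y = w.h0 false y.1 := by
  have h2 := hp.out.two_le
  simp only [ix, cx, Wall.h0, Prod.mk.injEq, true_and, funext_iff, Fin.val_rev, mem_nr_false]
  refine and_congr (forall_congr' fun i => ?_) ?_
  · have := (y.2.1 i).2
    split_ifs <;> omega
  · rw [← nr_compl, compl_eq_comm, eq_comm]

/-- the bounded form of `h0` -/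
def h0' (b : Bool) : Dr.Ix p s :=
  (0, fun i => ⟨if i ∈ w.nr b then p - 1 else 0, by
    have := hp.out.two_le
    split_ifs <;> omega⟩, w.nr b)

/-- the bounded form of `ld true` -/
def ld' (al : s) : Dr.Ix p s :=
  (0, fun i => ⟨if i = al then p - 2 else if i ∈ w.nr true then p - 1 else 0, by
    have := hp.out.two_le
    split_ifs <;> omega⟩, w.nr true)

theorem ix_h0' (b : Bool) : ix (h0' w b) = w.h0 b 0 := rfl

theorem ix_ld' (al : s) : ix (ld' w al) = w.ld true al := rfl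

theorem ix_cx_h0' : ix (cx (h0' w false)) = w.h0 true (-1) := (cx_h0 w).2 rfl

theorem ix_cx_ld' (al : s) : ix (cx (ld' w al)) = w.ld false al := by
  have h2 := hp.out.two_le
  simp only [ix, cx, ld', Wall.ld, Prod.mk.injEq, funext_iff, Fin.val_rev, mem_nr_false, nr_compl,
    and_true]
  refine ⟨by simp, fun i => ?_⟩
  simp only [Bool.false_eq_true, if_false]
  split_ifs <;> omega

theorem dg_ld (al : s) (hal : w.kd al = none) :
    dg δ w.deg 0 (w.ld true al).2.1 (w.nr true) + w.deg al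
      = dg δ w.deg 0 (w.h0 true 0).2.1 (w.nr true) := by
  have h2 := hp.out.two_le
  have hm : al ∈ w.nr true := by simp [Wall.nr, hal]
  have : (w.ld true al).2.1 = (w.h0 true 0).2.1 - Pi.single al 1 := by
    funext i
    by_cases hi : i = al
    · subst hi
      simp only [Wall.ld, Wall.h0, if_true, Pi.sub_apply, Pi.single_eq_same, if_pos hm]
      omega
    · simp [Wall.ld, Wall.h0, hi]
  rw [this, dg, dg, sum_sub_single w.deg (by simp only [Wall.h0, if_pos hm]; omega)]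
  abel

theorem wW_le {N La : ℕ} (h : w.Adm N La) (al : s) (hal : w.kd al = none) (x : Dr.Ix p s)
    (hx : x.1 < 0) : w.wW N La (ix x) < w.wW N La (w.ld true al) := by
  have h2 := hp.out.two_le
  have hN : 0 < N := lt_of_le_of_lt (Nat.zero_le _) (h.1 al)
  have hm : ∀ i, w.kd i = none → i ∈ w.nr true := fun i hi => by simp [Wall.nr, hi]
  have a1 : ∑ i, ((x.2.1 i : ℕ) : ℤ) * (if w.kd i = none then (La : ℤ) else N + w.F i)
      ≤ ∑ i, ((((w.ld true al).2.1 i : ℕ) : ℤ) * (if w.kd i = none then (La : ℤ) else N + w.F i)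
        + ((if i = al then (La : ℤ) else 0) + ((p : ℤ) - 1) * (2 * N))) := by
    refine sum_le_sum fun i _ => ?_
    have b1 : ((x.2.1 i : ℕ) : ℤ) ≤ p - 1 := by have := (x.2.1 i).2; omega
    have b2 := h.1 i
    have b3 : (0 : ℤ) ≤ ((p : ℤ) - 1) * (2 * N) := mul_nonneg (by omega) (by omega)
    simp only [Wall.ld, if_true]
    by_cases hi : i = al
    · subst hi
      rw [if_pos hal, if_pos rfl, if_pos rfl, Nat.cast_sub h2]
      push_cast
      nlinarith
    · rw [if_neg hi, if_neg hi]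
      by_cases hk : w.kd i = none
      · rw [if_pos hk, if_pos (hm i hk), Nat.cast_sub (by omega)]
        push_cast
        nlinarith
      · rw [if_neg hk]
        have b4 : (0 : ℤ) ≤ ((if i ∈ w.nr true then p - 1 else 0 : ℕ) : ℤ) * (N + w.F i) := by
          positivity
        have b5 : ((x.2.1 i : ℕ) : ℤ) * (N + w.F i) ≤ ((p : ℤ) - 1) * (2 * N) :=
          mul_le_mul b1 (by omega) (by positivity) (by omega)
        omega
  have a2 : ∑ i ∈ x.2.2, ((N : ℤ) + w.F i) ≤ ∑ _i : s, (2 * N : ℤ) :=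
    (sum_le_sum_of_subset_of_nonneg (subset_univ _) fun i _ _ => by positivity).trans
      (sum_le_sum fun i _ => by have := h.1 i; omega)
  have a3 : (0 : ℤ) ≤ ∑ i ∈ w.nr true, ((N : ℤ) + w.F i) := sum_nonneg fun i _ => by positivity
  have a4 : (2 * N * p * (Fintype.card s + 1) : ℤ) ≤ La := by exact_mod_cast h.2
  simp only [sum_add_distrib, sum_ite_eq', mem_univ, if_true, sum_const, card_univ,
    nsmul_eq_mul] at a1 a2 a3
  have a5 : (0 : ℤ) < 2 * N * p := by positivity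
  have a6 : 2 * (La : ℤ) * x.1 ≤ -(2 * La) := by nlinarith
  simp only [Wall.wW, wt, ix, sum_add_distrib, sum_const, nsmul_eq_mul]
  have a7 : (w.ld true al).1 = 0 := rfl
  have a8 : (w.ld true al).2.2 = w.nr true := rfl
  rw [a7, a8]
  nlinarith

omit hp [DecidableEq s] in
theorem le_wW {N La : ℕ} (h : 0 < La) (x : Core.Ix s) (hx : 0 ≤ x.1) : x.1 ≤ w.wW N La x := by
  have a1 : (0 : ℤ) ≤ ∑ i, ((x.2.1 i : ℕ) : ℤ) * (if w.kd i = none then (La : ℤ) else N + w.F i) :=
    sum_nonneg fun i _ => mul_nonneg (by positivity) (by split_ifs <;> positivity)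
  have a2 : (0 : ℤ) ≤ ∑ i ∈ x.2.2, ((N : ℤ) + w.F i) := sum_nonneg fun i _ => by positivity
  simp only [Wall.wW, wt]
  nlinarith

end Wall

open N255.Core in
/-- **the dichotomy** -/
theorem dichS_holds : DichS := by
  intro p hp Γ _ δ s _ _ w N La h al hal
  have hN : 0 < N := lt_of_le_of_lt (Nat.zero_le _) (h.1 al)
  have hLa : 0 < La := lt_of_lt_of_le (by have := hp.out.pos; positivity) h.2
  have hW : ∀ c : LA (ZMod p), c • O.bc (LA (ZMod p)) w.W ∈ (O.mx : Ideal _) ^ 2 := fun c => by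
    rw [Algebra.smul_def]; exact Ideal.mul_mem_left _ _ (O.bc_mem_pow _ w.W2)
  have hE : w.Eu true * w.Eu false = 1 := by
    simp only [Wall.Eu, if_true, Bool.false_eq_true, if_false, neg_smul]
    exact O.E_neg_mul (hW _)
  have hG : fn (w.Eu true) ∈ Su fun j a S => dg δ w.deg j a S = 0 := by
    refine E_mem_Su (by simp [dg]) (fun j a j' a' h1 h2 => ?_) (hW _) ?_
    · have := dg_add δ w.deg j j' a a' (disjoint_empty_left (∅ : Finset s))
      rwa [h1, h2, add_zero, union_empty] at this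
    · rw [if_pos rfl, neg_smul, fn, map_neg, ← fn, fn_smul]
      refine neg_mem (Su_T (P := fun j a S => dg δ w.deg j a S = δ) (-1) (fun j a S h1 => ?_)
        (fn_bc_mem fun a ha => by simpa [dg] using w.hom a ha))
      simp only [dg, add_smul] at h1 ⊢
      rw [add_assoc, add_assoc, ← add_assoc (j • δ), h1, neg_one_smul, neg_add_cancel]
  rcases dich_om δ w.deg (w.Eu false) (w.Eu true) hE hG {x | w.Hm N true (ix x)}
    {x | w.wW N La (w.ld true al) ≤ w.wW N La (ix x)} (|w.wW N La (w.ld true al)| + 1)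
    (fun x hx => not_lt.1 fun h0 => not_lt.2 hx (wW_le w h al hal x h0))
    (fun x hx => by
      have h1 := le_abs_self (w.wW N La (w.ld true al))
      have h2 := abs_nonneg (w.wW N La (w.ld true al))
      have h3 : x.1 ≤ _ := le_wW w (N := N) hLa (ix x) (by change 0 ≤ x.1; omega)
      simp only [Set.mem_ofPred_eq]
      omega)
    (ld' w al) (by have := abs_nonneg (w.wW N La (w.ld true al)); change 0 < _; omega) with
    ⟨z, u, h1, h2, h3⟩ | ⟨z, u, h1, h2, h3⟩
  · refine Or.inl ⟨z, u, h2, In_of_Sp (fun x hx => hx) h1, In_of_Sp ?_ (by rwa [ub_eq] at h3)⟩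
    rintro x ⟨⟨g1, g2⟩, g3⟩
    refine (if_pos rfl).mpr ⟨g2, fun be hbe e => g3 ?_⟩
    obtain rfl : x = ld' w be := ix_inj e
    have e1 := dg_ld w be hbe
    rw [← dg_ld w al hal] at e1
    have e2 : w.deg be = w.deg al := add_left_cancel ((congrArg (· + w.deg be) g1).symm.trans e1)
    rw [w.inj be al hbe hal e2]
    rfl
  · refine Or.inr ⟨z, u, h2, In_of_Sp (fun y hy => ?_) h1,
      In_of_Sp (fun y hy => ?_) (by rwa [ub_eq, ix_cx_ld'] at h3)⟩
    · simp only [Set.mem_ofPred_eq, Wall.Hm, not_or, not_and, if_true] at hy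
      by_cases e : ix y = w.h0 false y.1
      · have := hy.1 ((cx_h0 w).2 e)
        refine Or.inl ⟨e, ?_⟩
        change ¬ 0 ≤ -1 - y.1 at this
        change 0 ≤ y.1
        omega
      · have e1 := hy.2 fun h' => e ((cx_h0 w).1 h')
        refine Or.inr ⟨e, (if_neg Bool.false_ne_true).mpr ?_⟩
        have e2 := wt_cx 0 (fun i => (N : ℤ) + w.F i) (fun i => (N : ℤ) + w.F i) y
        have e3 := wt_cx 0 (fun i => (N : ℤ) + w.F i) (fun i => (N : ℤ) + w.F i) (h0' w false)
        rw [ix_cx_h0', ix_h0'] at e3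
        have e4 : w.wF N (w.h0 true (-1)) = w.wF N (w.h0 true 0) := by simp [Wall.wF, wt, Wall.h0]
        simp only [Wall.wF] at e1 e4 ⊢
        omega
    · refine (if_neg Bool.false_ne_true).mpr ?_
      have e2 := wt_cx (2 * La) (fun i => if w.kd i = none then (La : ℤ) else N + w.F i)
        (fun i => (N : ℤ) + w.F i) y
      have e3 := wt_cx (2 * La) (fun i => if w.kd i = none then (La : ℤ) else N + w.F i)
        (fun i => (N : ℤ) + w.F i) (ld' w al)
      rw [ix_cx_ld', ix_ld'] at e3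
      simp only [Set.mem_ofPred_eq, Wall.wW, not_le] at hy ⊢
      omega

end N255.Ts
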